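import Vale.Agent.P064.Second.Graph

open SimpleGraph

namespace Vale.Agent.Results.P064.SecondKahnKalai

open Vale.Agent.P064

/-- The second Kahn–Kalai conjecture: `p_c(n,H) ≤ C log n · p_E(n,H)`. -/
theorem result :
    ∃ C : ℝ, ∀ (n v : ℕ) (H : SimpleGraph (Fin v)), 2 ≤ n → v ≤ n → H ≠ ⊥ →
      pC n H ≤ C * Real.log n * pE n H :=
  Second.second_kahn_kalai

end Vale.Agent.Results.P064.SecondKahnKalai
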